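import Vale.Agent.Lib.P074.Third.Defs
import Vale.Agent.Lib.P074.helper81.AdmOfReal

/-!
# P074: from the real-valued `1/3`-estimate to admissibility of the exponent `1/3`
(`ENNReal` bookkeeping)
-/

namespace Vale.Agent.Lib.P074

open MeasureTheory ENNReal

variable {d : ℕ}

theorem admissible_third_of_real3 (d : ℕ) (h : Real3Statement d) : Admissible d (1 / 3) := by
  intro K hK hconv hint Y hY hYne
  obtain ⟨C0, hC0, h⟩ := h K hK hconv hint Y hY hYne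
  obtain ⟨R, hR⟩ : ∃ R : ℝ, Y ⊆ Metric.closedBall 0 R := hY.isBounded.subset_closedBall 0
  refine ⟨Real.sqrt C0 + 1, ?_⟩
  intro μ ν hμ hν hμY hνY T S hT hS
  have := isProbabilityMeasure_unif' hK hint
  have hcpos : (0 : ℝ) < Real.sqrt C0 + 1 := by positivity
  have aT := ae_norm_le_of_map' hT.1 hT.2.1 hY hμY hR
  have aS := ae_norm_le_of_map' hS.1 hS.2.1 hY hνY hR
  have hbd : ∀ᵐ x ∂(unif K), ‖T x - S x‖ ^ 2 ≤ (2 * R) ^ 2 := by
    filter_upwards [aT, aS] with x h1 h2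
    have : ‖T x - S x‖ ≤ 2 * R := (norm_sub_le _ _).trans (by linarith)
    exact pow_le_pow_left₀ (norm_nonneg _) this 2
  have hmeas : Measurable (fun x => ‖T x - S x‖ ^ 2) := ((hT.1.sub hS.1).norm).pow_const 2
  have hint2 : Integrable (fun x => ‖T x - S x‖ ^ 2) (unif K) :=
    Integrable.of_bound hmeas.aestronglyMeasurable ((2 * R) ^ 2) (by
      filter_upwards [hbd] with x hx
      rwa [Real.norm_of_nonneg (by positivity)])
  have hA0 : 0 ≤ ∫ x, ‖T x - S x‖ ^ 2 ∂(unif K) := integral_nonneg fun x => by positivity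
  have hL : eLpNorm (fun x => T x - S x) 2 (unif K)
      = ENNReal.ofReal (Real.sqrt (∫ x, ‖T x - S x‖ ^ 2 ∂(unif K))) := by
    rw [eLpNorm_two_eq', ← ofReal_integral_eq_lintegral_ofReal hint2
      (ae_of_all _ fun x => by positivity), Real.sqrt_eq_rpow,
      ENNReal.ofReal_rpow_of_nonneg hA0 (by norm_num)]
  have key : ∀ π : Measure (E d × E d), π.map Prod.fst = μ → π.map Prod.snd = ν →
      eLpNorm (fun x => T x - S x) 2 (unif K) ≤
        ENNReal.ofReal (Real.sqrt C0 + 1) *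
          (∫⁻ p, ENNReal.ofReal (‖p.1 - p.2‖ ^ 2) ∂π) ^ (1 / 6 : ℝ) := by
    intro π h1 h2
    obtain ⟨hπ, hb⟩ := coupling_facts' hY hμY hνY hR h1 h2
    have hintπ : Integrable (fun p : E d × E d => ‖p.1 - p.2‖ ^ 2) π :=
      Integrable.of_bound
        ((measurable_fst.sub measurable_snd).norm.pow_const 2).aestronglyMeasurable
        ((2 * R) ^ 2)
        (by
          filter_upwards [hb] with p hp
          rw [Real.norm_of_nonneg (by positivity)]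
          exact pow_le_pow_left₀ (norm_nonneg _) hp 2)
    have hw : ∫⁻ p, ENNReal.ofReal (‖p.1 - p.2‖ ^ 2) ∂π
        = ENNReal.ofReal (∫ p, ‖p.1 - p.2‖ ^ 2 ∂π) :=
      (ofReal_integral_eq_lintegral_ofReal hintπ (ae_of_all _ fun p => by positivity)).symm
    have hA := h μ ν hμ hν hμY hνY T S hT hS π h1 h2
    have hw0 : 0 ≤ ∫ p, ‖p.1 - p.2‖ ^ 2 ∂π := integral_nonneg fun p => by positivity
    rw [hL, hw, ENNReal.ofReal_rpow_of_nonneg hw0 (by norm_num),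
      ← ENNReal.ofReal_mul hcpos.le]
    apply ENNReal.ofReal_le_ofReal
    have e2 : Real.sqrt (C0 * (∫ p, ‖p.1 - p.2‖ ^ 2 ∂π) ^ (1 / 3 : ℝ))
        = Real.sqrt C0 * (∫ p, ‖p.1 - p.2‖ ^ 2 ∂π) ^ (1 / 6 : ℝ) := by
      rw [Real.sqrt_mul hC0,
        Real.sqrt_eq_rpow ((∫ p, ‖p.1 - p.2‖ ^ 2 ∂π) ^ (1 / 3 : ℝ)), ← Real.rpow_mul hw0]
      norm_num
    have hq : 0 ≤ (∫ p, ‖p.1 - p.2‖ ^ 2 ∂π) ^ (1 / 6 : ℝ) := Real.rpow_nonneg hw0 _
    calc Real.sqrt (∫ x, ‖T x - S x‖ ^ 2 ∂(unif K))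
        ≤ Real.sqrt (C0 * (∫ p, ‖p.1 - p.2‖ ^ 2 ∂π) ^ (1 / 3 : ℝ)) := Real.sqrt_le_sqrt hA
      _ = Real.sqrt C0 * (∫ p, ‖p.1 - p.2‖ ^ 2 ∂π) ^ (1 / 6 : ℝ) := e2
      _ ≤ (Real.sqrt C0 + 1) * (∫ p, ‖p.1 - p.2‖ ^ 2 ∂π) ^ (1 / 6 : ℝ) := by
          apply mul_le_mul_of_nonneg_right _ hq
          linarith
  have hc0 : ENNReal.ofReal (Real.sqrt C0 + 1) ≠ 0 := by
    simp only [ne_eq, ENNReal.ofReal_eq_zero, not_le]; exact hcpos
  have hctop : ENNReal.ofReal (Real.sqrt C0 + 1) ≠ ⊤ := ENNReal.ofReal_ne_top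
  rw [mul_comm, ← ENNReal.div_le_iff_le_mul (Or.inl hc0) (Or.inl hctop)]
  unfold W2
  rw [← ENNReal.rpow_mul]
  have e6 : (1 / 2 : ℝ) * (1 / 3) = (6 : ℝ)⁻¹ := by norm_num
  rw [e6, ENNReal.le_rpow_inv_iff (by norm_num : (0 : ℝ) < 6)]
  refine le_iInf₂ fun π hπ => ?_
  rw [← ENNReal.le_rpow_inv_iff (by norm_num : (0 : ℝ) < 6), ← one_div,
    ENNReal.div_le_iff_le_mul (Or.inl hc0) (Or.inl hctop), mul_comm]
  exact key π hπ.1 hπ.2

end Vale.Agent.Lib.P074
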